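import Vale.Agent.P221X.Fin.Full
import Vale.Agent.P251.St.Result2

/-!
# P221: a counterexample to the Hahn-Wilson conjecture at height two

There is a stable homotopy category with a suspension spectrum functor; in each of them, for every
prime `p ≥ 5`, there is a standard form of `BP⟨2⟩_p`, and there is an fp-spectrum `X` of fp-type at
most `2` which lies in the thick subcategory generated by `B` for no standard form `B` of
`BP⟨2⟩_p`.
-/

namespace Vale.Agent.Results.P221.Disproof

open Vale.Agent.P251.St Vale.Agent.P251.St.SHCat Vale.Agent.P221.StI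

theorem result : (∃ T : SHCat, Nonempty (Susp T)) ∧ ∀ (T : SHCat) (S : Susp T) (p : ℕ), p.Prime →
    5 ≤ p → (∃ B : T.C, IsStandardForm S p 2 B) ∧ ∃ X : T.C, IsFpType S p 2 X ∧
      ∀ B : T.C, IsStandardForm S p 2 B → ¬ ThickOf (fun Y => Y = B) X :=
  ⟨nonempty_susp, fun _ _ _ hp h5 => Vale.Agent.P221X.Fin.full hp h5⟩

end Vale.Agent.Results.P221.Disproof
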